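import Mathlib
import Vale.Agent.P109.Realize

/-!
Ergodic rotations whose eigenvalue group has finite rank and is not finitely generated have smooth
volume preserving models.
-/

open MeasureTheory Filter Topology Set
open scoped ContDiff ENNReal

namespace Vale.Agent.Results.P109.FiniteRankRealization

/-- The manifold: `q` copies of the torus `(ℝ/ℤ)^d`. -/
abbrev Space (q d : ℕ) : Type := Fin q × (Fin d → UnitAddCircle)

/-- The covering map of the torus. -/
noncomputable def cover (d : ℕ) (x : Fin d → ℝ) : Fin d → UnitAddCircle :=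
  fun i => (x i : UnitAddCircle)

/-- The probability measure which is Lebesgue measure divided by `q` on each copy. -/
noncomputable def normalizedVolume (q d : ℕ) : Measure (Space q d) :=
  (q : ℝ≥0∞)⁻¹ • (Measure.count : Measure (Fin q)).prod volume

/-- `S` permutes the copies by `σ`, is given on each copy, as is its inverse, by smooth mutually
inverse maps of the covering space, and preserves the normalized volume. -/
def IsVolumeDiffeo (q d : ℕ) (S : Space q d ≃ₜ Space q d) : Prop :=
  (∃ (σ : Equiv.Perm (Fin q)) (F G : Fin q → (Fin d → ℝ) → (Fin d → ℝ)), ∀ i,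
    ContDiff ℝ ∞ (F i) ∧ ContDiff ℝ ∞ (G i) ∧ (∀ x, F i (G i x) = x) ∧ (∀ x, G i (F i x) = x) ∧
    (∀ x, S (i, cover d x) = (σ i, cover d (F i x))) ∧
    ∀ x, S.symm (σ i, cover d x) = (i, cover d (G i x))) ∧
  MeasurePreserving S (normalizedVolume q d) (normalizedVolume q d)

/-- Finite rank: nonzero multiples of all elements are combinations of finitely many points. -/
def HasFiniteRank (Γ : AddSubgroup UnitAddCircle) : Prop :=
  ∃ (k : ℕ) (w : Fin k → UnitAddCircle), ∀ γ ∈ Γ, ∃ (m : ℤ) (c : Fin k → ℤ),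
    m ≠ 0 ∧ m • γ = ∑ i, c i • w i

/-- The torsion elements of `Γ`. -/
def torsionSet (Γ : AddSubgroup UnitAddCircle) : Set UnitAddCircle :=
  {x | x ∈ Γ ∧ ∃ k : ℤ, k ≠ 0 ∧ k • x = 0}

/-- The function is additive. -/
def IsAdditive {Γ : AddSubgroup UnitAddCircle} (χ : Γ → UnitAddCircle) : Prop :=
  ∀ a b, χ (a + b) = χ a + χ b

/-- The dual group of a subgroup of the circle: its additive maps to the circle. -/
def DualGroup (Γ : AddSubgroup UnitAddCircle) : Type := {χ : Γ → UnitAddCircle // IsAdditive χ}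

/-- The product sigma algebra on the dual group. -/
instance dualGroupMeasurableSpace (Γ : AddSubgroup UnitAddCircle) :
    MeasurableSpace (DualGroup Γ) :=
  inferInstanceAs (MeasurableSpace {χ : Γ → UnitAddCircle // IsAdditive χ})

lemma isAdditive_add {Γ : AddSubgroup UnitAddCircle} {χ h : Γ → UnitAddCircle}
    (hχ : IsAdditive χ) (hh : IsAdditive h) : IsAdditive (fun γ => χ γ + h γ) := fun a b => by
  simp only [hχ a b, hh a b]; abel

/-- Translation of the dual group by `h`. -/
def shift {Γ : AddSubgroup UnitAddCircle} (h χ : DualGroup Γ) : DualGroup Γ :=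
  ⟨fun γ => χ.1 γ + h.1 γ, isAdditive_add χ.2 h.2⟩

lemma isAdditive_coe (Γ : AddSubgroup UnitAddCircle) :
    IsAdditive (fun γ : Γ => (γ : UnitAddCircle)) := fun _ _ => rfl

/-- The inclusion of the subgroup in the circle, as a point of the dual group. -/
def incl (Γ : AddSubgroup UnitAddCircle) : DualGroup Γ :=
  ⟨fun γ => (γ : UnitAddCircle), isAdditive_coe Γ⟩

/-- `μ` is the translation invariant probability measure, and the only probability measure
invariant under translation by the inclusion. -/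
def IsHaar {Γ : AddSubgroup UnitAddCircle} (μ : Measure (DualGroup Γ)) : Prop :=
  IsProbabilityMeasure μ ∧ (∀ h, MeasurePreserving (shift h) μ μ) ∧
    ∀ ρ : Measure (DualGroup Γ), IsProbabilityMeasure ρ →
      MeasurePreserving (shift (incl Γ)) ρ ρ → ρ = μ

/-- `T` with `μ` and `S` with `ν` are isomorphic by a bimeasurable measure preserving bijection
between conull invariant sets. -/
def IsIsomorphic {X Y : Type} [MeasurableSpace X] [MeasurableSpace Y] (T : X → X) (μ : Measure X)
    (S : Y → Y) (ν : Measure Y) : Prop :=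
  ∃ (Φ : X → Y) (Ψ : Y → X) (X0 : Set X) (Y0 : Set Y),
    MeasurableSet X0 ∧ MeasurableSet Y0 ∧ μ X0ᶜ = 0 ∧ ν Y0ᶜ = 0 ∧ T '' X0 = X0 ∧ S '' Y0 = Y0 ∧
    BijOn Φ X0 Y0 ∧ InvOn Ψ Φ X0 Y0 ∧ MeasurePreserving Φ μ ν ∧ MeasurePreserving Ψ ν μ ∧
    ∀ x ∈ X0, Φ (T x) = S (Φ x)

/-- Let `Γ` be a subgroup of the circle which has finite rank and is not finitely generated. The
translation of its dual group by the inclusion, with Haar measure, is isomorphic to a smooth volume
preserving diffeomorphism of finitely many copies of a torus, of a single torus if the torsion of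
`Γ` is infinite or trivial. -/
theorem result (Γ : AddSubgroup UnitAddCircle) (hrank : HasFiniteRank Γ) (hnfg : ¬ Γ.FG) :
    ∃ (q d : ℕ) (S : Space q d ≃ₜ Space q d) (μ : Measure (DualGroup Γ)),
      0 < q ∧ ((torsionSet Γ).Infinite ∨ torsionSet Γ = {0} → q = 1) ∧
      IsVolumeDiffeo q d S ∧ IsHaar μ ∧
      IsIsomorphic (shift (incl Γ)) μ S (normalizedVolume q d) := by
  obtain ⟨k, w, hw⟩ := hrank
  obtain ⟨n, v, hv, hind, hspan⟩ := Vale.Agent.P109.Gen.exists_basis hw
  obtain ⟨p, Γ', hζ, hmul, hsurj, ⟨B⟩, hq⟩ :=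
    Vale.Agent.P109.Gen.realize hv hind hspan hnfg
  have : Countable Γ := (Vale.Agent.P109.Gen.countable_of_span hspan).to_subtype
  obtain ⟨S, μ, hlift, hmp, hprob, htr, huniq, hiso⟩ :=
    Vale.Agent.P109.Gen.extend p hζ hmul hsurj B
  exact ⟨p + 1, B.d, S, μ, Nat.succ_pos p, fun h => congrArg (· + 1) (hq h), ⟨hlift, hmp⟩,
    ⟨hprob, htr, huniq⟩, hiso⟩

end Vale.Agent.Results.P109.FiniteRankRealization
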